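import Mathlib

namespace Vale.Agent.Lib.P262

open Finset
open scoped RealInnerProductSpace

variable {E : Type*} [NormedAddCommGroup E] [InnerProductSpace ℝ E]

/-- The (fractional) prefix sum `∑_{i<k} x_i v_i`. -/
noncomputable def pre (v : ℕ → E) (x : ℕ → ℝ) (k : ℕ) : E := ∑ i ∈ range k, x i • v i

/-- The potential. -/
noncomputable def U (v : ℕ → E) (μ : ℕ → ℝ) (n : ℕ) (x : ℕ → ℝ) : ℝ :=
  ∑ k ∈ range (n + 1), μ k * (‖pre v x k‖ ^ 2 + 2 * ∑ i ∈ range k, (1 - x i ^ 2))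

/-- The quadratic part of the potential along a direction. -/
noncomputable def Q (v : ℕ → E) (μ : ℕ → ℝ) (n : ℕ) (δ : ℕ → ℝ) : ℝ :=
  ∑ k ∈ range (n + 1), μ k * (‖pre v δ k‖ ^ 2 - 2 * ∑ i ∈ range k, δ i ^ 2)

/-- The linear part of the potential along a direction. -/
noncomputable def Lf (v : ℕ → E) (μ : ℕ → ℝ) (n : ℕ) (x δ : ℕ → ℝ) : ℝ :=
  ∑ k ∈ range (n + 1), μ k * (2 * ⟪pre v x k, pre v δ k⟫ - 4 * ∑ i ∈ range k, x i * δ i)

lemma pre_add_smul (v : ℕ → E) (x δ : ℕ → ℝ) (s : ℝ) (k : ℕ) :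
    pre v (fun i => x i + s * δ i) k = pre v x k + s • pre v δ k := by
  unfold pre
  rw [smul_sum, ← sum_add_distrib]
  apply sum_congr rfl
  intro i _
  rw [add_smul, mul_smul]

lemma U_expand (v : ℕ → E) (μ : ℕ → ℝ) (n : ℕ) (x δ : ℕ → ℝ) (s : ℝ) :
    U v μ n (fun i => x i + s * δ i) = U v μ n x + s * Lf v μ n x δ + s ^ 2 * Q v μ n δ := by
  unfold U Lf Q
  rw [mul_sum, mul_sum, ← sum_add_distrib, ← sum_add_distrib]
  apply sum_congr rfl
  intro k _
  rw [pre_add_smul, @norm_add_sq_real, inner_smul_right, norm_smul]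
  have h : ∑ i ∈ range k, (1 - (x i + s * δ i) ^ 2)
      = ∑ i ∈ range k, (1 - x i ^ 2) - 2 * s * ∑ i ∈ range k, x i * δ i
        - s ^ 2 * ∑ i ∈ range k, δ i ^ 2 := by
    rw [mul_sum, mul_sum, ← sum_sub_distrib, ← sum_sub_distrib]
    apply sum_congr rfl
    intro i _
    ring
  rw [h, mul_pow, Real.norm_eq_abs, sq_abs]
  ring

/-- Moving from an interior point of the cube along a nonzero direction one hits the boundary. -/
lemma hit (x δ : ℕ → ℝ) (F : Finset ℕ) (hx : ∀ i, |x i| ≤ 1)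
    (hδF : ∀ i, i ∉ F → δ i = 0) (hδ : ∃ i, δ i ≠ 0) :
    ∃ s : ℝ, 0 ≤ s ∧ (∀ i, |x i + s * δ i| ≤ 1) ∧ ∃ i ∈ F, |x i + s * δ i| = 1 := by
  classical
  set F' := F.filter (fun i => δ i ≠ 0) with hF'
  have hne : F'.Nonempty := by
    obtain ⟨i, hi⟩ := hδ
    refine ⟨i, ?_⟩
    rw [hF', mem_filter]
    refine ⟨?_, hi⟩
    by_contra h
    exact hi (hδF i h)
  let τ : ℕ → ℝ := fun i => (|δ i| - x i * δ i) / (δ i) ^ 2
  obtain ⟨i0, hi0, hmin⟩ := exists_min_image F' τ hne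
  have hτ : ∀ i, δ i ≠ 0 → 0 ≤ τ i := by
    intro i hi
    apply div_nonneg _ (sq_nonneg _)
    have h1 : x i * δ i ≤ |x i * δ i| := le_abs_self _
    rw [abs_mul] at h1
    have h2 : |x i| * |δ i| ≤ 1 * |δ i| := mul_le_mul_of_nonneg_right (hx i) (abs_nonneg _)
    linarith
  have hi0' : δ i0 ≠ 0 := (mem_filter.1 hi0).2
  refine ⟨τ i0, hτ i0 hi0', ?_, i0, (mem_filter.1 hi0).1, ?_⟩
  · intro i
    by_cases hi : δ i = 0
    · rw [hi, mul_zero, add_zero]; exact hx i
    · have hiF : i ∈ F' := by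
        rw [hF', mem_filter]
        refine ⟨?_, hi⟩
        by_contra h
        exact hi (hδF i h)
      have hle : τ i0 ≤ τ i := hmin i hiF
      have h0 : 0 ≤ τ i0 := hτ i0 hi0'
      have hxi := abs_le.1 (hx i)
      rw [abs_le]
      rcases lt_or_gt_of_ne hi with hneg | hpos
      · have e : τ i * δ i = -1 - x i := by
          simp only [τ]
          rw [abs_of_neg hneg]
          field_simp
        constructor
        · have : τ i * δ i ≤ τ i0 * δ i := mul_le_mul_of_nonpos_right hle hneg.le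
          linarith
        · have : τ i0 * δ i ≤ 0 := mul_nonpos_of_nonneg_of_nonpos h0 hneg.le
          linarith [hxi.2]
      · have e : τ i * δ i = 1 - x i := by
          simp only [τ]
          rw [abs_of_pos hpos]
          field_simp
        constructor
        · have : 0 ≤ τ i0 * δ i := mul_nonneg h0 hpos.le
          linarith [hxi.1]
        · have : τ i0 * δ i ≤ τ i * δ i := mul_le_mul_of_nonneg_right hle hpos.le
          linarith
  · rcases lt_or_gt_of_ne hi0' with hneg | hpos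
    · have e : τ i0 * δ i0 = -1 - x i0 := by
        simp only [τ]
        rw [abs_of_neg hneg]
        field_simp
      rw [e]; norm_num
    · have e : τ i0 * δ i0 = 1 - x i0 := by
        simp only [τ]
        rw [abs_of_pos hpos]
        field_simp
      rw [e]; norm_num

/-- The move lemma: along a direction on which the potential is concave one can move to the
boundary of the cube without increasing the potential. -/
lemma move (v : ℕ → E) (μ : ℕ → ℝ) (n : ℕ) (x δ : ℕ → ℝ) (F : Finset ℕ) (hx : ∀ i, |x i| ≤ 1)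
    (hδF : ∀ i, i ∉ F → δ i = 0) (hδ : ∃ i, δ i ≠ 0) (hQ : Q v μ n δ ≤ 0) :
    ∃ s : ℝ, (∀ i, |x i + s * δ i| ≤ 1) ∧ (∃ i ∈ F, |x i + s * δ i| = 1) ∧
      U v μ n (fun i => x i + s * δ i) ≤ U v μ n x := by
  by_cases hL : Lf v μ n x δ ≤ 0
  · obtain ⟨s, hs, h1, h2⟩ := hit x δ F hx hδF hδ
    refine ⟨s, h1, h2, ?_⟩
    rw [U_expand]
    have a1 : s * Lf v μ n x δ ≤ 0 := mul_nonpos_of_nonneg_of_nonpos hs hL
    have a2 : s ^ 2 * Q v μ n δ ≤ 0 := mul_nonpos_of_nonneg_of_nonpos (sq_nonneg _) hQ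
    linarith
  · rw [not_le] at hL
    obtain ⟨s, hs, h1, h2⟩ := hit x (fun i => - δ i) F hx
      (fun i hi => by simp [hδF i hi]) (by obtain ⟨i, hi⟩ := hδ; exact ⟨i, by simpa using hi⟩)
    have e : ∀ i, x i + s * -δ i = x i + (-s) * δ i := fun i => by ring
    simp only [e] at h1 h2
    refine ⟨-s, h1, h2, ?_⟩
    rw [U_expand]
    have a1 : (-s) * Lf v μ n x δ ≤ 0 := by
      have := mul_nonneg hs hL.le
      linarith
    have a2 : (-s) ^ 2 * Q v μ n δ ≤ 0 := mul_nonpos_of_nonneg_of_nonpos (sq_nonneg _) hQ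
    linarith

end Vale.Agent.Lib.P262
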