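import Mathlib
import Vale.Agent.Lib.P262.Move

namespace Vale.Agent.Lib.P262

open Finset Module
open scoped RealInnerProductSpace

/-- Averaging over an orthonormal basis of a subspace (Bessel). -/
lemma exists_unit_small {ι 𝒜 : Type*} [Fintype ι] (K : Submodule ℝ (EuclideanSpace ℝ ι))
    (S : Finset 𝒜) (u : 𝒜 → EuclideanSpace ℝ ι) (w : 𝒜 → ℝ) (hw : ∀ a ∈ S, 0 ≤ w a) (C : ℝ)
    (hC : ∑ a ∈ S, w a * ‖u a‖ ^ 2 ≤ C * finrank ℝ K) (hK : 0 < finrank ℝ K) :
    ∃ b ∈ K, ‖b‖ = 1 ∧ ∑ a ∈ S, w a * ⟪b, u a⟫ ^ 2 ≤ C := by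
  classical
  let B := stdOrthonormalBasis ℝ K
  have hon : Orthonormal ℝ (fun j => ((B j : K) : EuclideanSpace ℝ ι)) :=
    B.orthonormal.comp_linearIsometry K.subtypeₗᵢ
  have hbes : ∀ a, ∑ j, ⟪((B j : K) : EuclideanSpace ℝ ι), u a⟫ ^ 2 ≤ ‖u a‖ ^ 2 := by
    intro a
    have := hon.sum_inner_products_le (u a) (s := Finset.univ)
    simpa using this
  have hsum : ∑ j, ∑ a ∈ S, w a * ⟪((B j : K) : EuclideanSpace ℝ ι), u a⟫ ^ 2
      ≤ ∑ _j : Fin (finrank ℝ K), C := by
    rw [sum_comm]
    calc ∑ a ∈ S, ∑ j, w a * ⟪((B j : K) : EuclideanSpace ℝ ι), u a⟫ ^ 2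
        = ∑ a ∈ S, w a * ∑ j, ⟪((B j : K) : EuclideanSpace ℝ ι), u a⟫ ^ 2 := by
          apply sum_congr rfl; intro a _; rw [mul_sum]
      _ ≤ ∑ a ∈ S, w a * ‖u a‖ ^ 2 := by
          apply sum_le_sum; intro a ha
          exact mul_le_mul_of_nonneg_left (hbes a) (hw a ha)
      _ ≤ C * finrank ℝ K := hC
      _ = ∑ _j : Fin (finrank ℝ K), C := by simp [mul_comm]
  have : Nonempty (Fin (finrank ℝ K)) := ⟨⟨0, hK⟩⟩
  obtain ⟨j, _, hj⟩ := exists_le_of_sum_le (univ_nonempty) hsum
  exact ⟨B j, (B j).2, hon.1 j, hj⟩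

/-- Sums over an initial segment of a function supported on `F`, as sums over the subtype. -/
lemma sum_range_eq_sum_coe {M : Type*} [AddCommMonoid M] (F : Finset ℕ) (f : ℕ → M)
    (hf : ∀ i, i ∉ F → f i = 0) (k : ℕ) :
    ∑ i ∈ range k, f i = ∑ i : F, if (i : ℕ) < k then f i else 0 := by
  classical
  rw [Finset.sum_coe_sort F (fun i => if i < k then f i else 0), ← sum_filter]
  have h1 : ∑ i ∈ range k, f i = ∑ i ∈ (range k).filter (fun i => i ∈ F), f i := by
    rw [sum_filter]
    apply sum_congr rfl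
    intro i _
    by_cases h : i ∈ F
    · simp [h]
    · simp [h, hf i h]
  rw [h1]
  apply sum_congr _ (fun _ _ => rfl)
  ext i
  simp only [mem_filter, mem_range]
  tauto

lemma pre_apply {d : ℕ} (v : ℕ → EuclideanSpace ℝ (Fin d)) (δ : ℕ → ℝ) (k : ℕ) (c' : Fin d) :
    (pre v δ k) c' = ∑ i ∈ range k, δ i * v i c' := by
  unfold pre
  induction k with
  | zero => simp
  | succ k ih =>
    rw [sum_range_succ, sum_range_succ, PiLp.add_apply, ih, PiLp.smul_apply, smul_eq_mul]

/-- The good direction lemma. -/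
lemma good_dir {d : ℕ} (v : ℕ → EuclideanSpace ℝ (Fin d)) (hv : ∀ i, ‖v i‖ ≤ 1) (μ : ℕ → ℝ)
    (hμ : ∀ k, 0 < μ k) (n : ℕ) (F : Finset ℕ) (hFn : ∀ i ∈ F, i < n) (hcard : 2 * d ≤ F.card)
    (hd : 1 ≤ d) :
    ∃ δ : ℕ → ℝ, (∀ i, i ∉ F → δ i = 0) ∧ (∃ i, δ i ≠ 0) ∧ pre v δ n = 0 ∧ Q v μ n δ ≤ 0 := by
  classical
  -- tail weights
  let M : ℕ → ℝ := fun i => ∑ k ∈ range (n + 1), if i < k then μ k else 0
  have hM : ∀ i ∈ F, 0 < M i := by
    intro i hi
    have h1 : (if i < n then μ n else 0) ≤ M i :=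
      single_le_sum (f := fun k => if i < k then μ k else 0)
        (fun k _ => by split_ifs <;> [exact (hμ k).le; exact le_rfl]) (by simp)
    rw [if_pos (hFn i hi)] at h1
    exact lt_of_lt_of_le (hμ n) h1
  let c : ℕ → ℝ := fun i => (Real.sqrt (M i))⁻¹
  have hc : ∀ i ∈ F, c i ^ 2 * M i = 1 := by
    intro i hi
    simp only [c]
    rw [inv_pow, Real.sq_sqrt (hM i hi).le]
    exact inv_mul_cancel₀ (hM i hi).ne'
  -- the linear map
  let A : EuclideanSpace ℝ F →ₗ[ℝ] EuclideanSpace ℝ (Fin d) :=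
    { toFun := fun η => ∑ i : F, (η i * c i) • v i
      map_add' := by
        intro η η'
        rw [← sum_add_distrib]
        apply sum_congr rfl
        intro i _
        rw [PiLp.add_apply, add_mul, add_smul]
      map_smul' := by
        intro r η
        rw [smul_sum]
        apply sum_congr rfl
        intro i _
        rw [PiLp.smul_apply, smul_eq_mul, RingHom.id_apply, mul_assoc, mul_smul] }
  set K := LinearMap.ker A with hKdef
  have hrank : F.card ≤ finrank ℝ K + d := by
    have h1 : finrank ℝ (LinearMap.range A) + finrank ℝ K = finrank ℝ (EuclideanSpace ℝ F) :=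
      LinearMap.finrank_range_add_finrank_ker A
    have h2 : finrank ℝ (LinearMap.range A) ≤ d := by
      have := Submodule.finrank_le (LinearMap.range A)
      simpa using this
    have h3 : finrank ℝ (EuclideanSpace ℝ F) = F.card := by simp
    omega
  have hKpos : 0 < finrank ℝ K := by omega
  -- test vectors
  let u : ℕ × Fin d → EuclideanSpace ℝ F :=
    fun a => WithLp.toLp 2 (fun i : F => if (i : ℕ) < a.1 then c i * v i a.2 else 0)
  have htrace : ∑ a ∈ range (n + 1) ×ˢ (univ : Finset (Fin d)), μ a.1 * ‖u a‖ ^ 2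
      ≤ 2 * finrank ℝ K := by
    have h1 : ∀ a : ℕ × Fin d, ‖u a‖ ^ 2
        = ∑ i : F, (if (i : ℕ) < a.1 then (1 : ℝ) else 0) * (c i ^ 2 * (v i a.2) ^ 2) := by
      intro a
      rw [EuclideanSpace.real_norm_sq_eq]
      apply sum_congr rfl
      intro i _
      simp only [u]
      split_ifs <;> ring
    calc ∑ a ∈ range (n + 1) ×ˢ (univ : Finset (Fin d)), μ a.1 * ‖u a‖ ^ 2
        = ∑ k ∈ range (n + 1), ∑ c' : Fin d, ∑ i : F,
            (if (i : ℕ) < k then μ k else 0) * (c i ^ 2 * (v i c') ^ 2) := by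
          rw [sum_product]
          apply sum_congr rfl; intro k _
          apply sum_congr rfl; intro c' _
          rw [h1, mul_sum]
          apply sum_congr rfl; intro i _
          simp only
          split_ifs <;> ring
      _ = ∑ k ∈ range (n + 1), ∑ i : F, ∑ c' : Fin d,
            (if (i : ℕ) < k then μ k else 0) * (c i ^ 2 * (v i c') ^ 2) := by
          apply sum_congr rfl; intro k _
          exact sum_comm
      _ = ∑ i : F, ∑ k ∈ range (n + 1), ∑ c' : Fin d,
            (if (i : ℕ) < k then μ k else 0) * (c i ^ 2 * (v i c') ^ 2) := sum_comm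
      _ = ∑ i : F, ‖v i‖ ^ 2 := by
          apply sum_congr rfl; intro i _
          have e : ∀ k ∈ range (n + 1), ∑ c' : Fin d,
              (if (i : ℕ) < k then μ k else 0) * (c i ^ 2 * (v i c') ^ 2)
              = (if (i : ℕ) < k then μ k else 0) * (c i ^ 2 * ‖v i‖ ^ 2) := by
            intro k _
            rw [EuclideanSpace.real_norm_sq_eq, mul_sum, mul_sum]
          rw [sum_congr rfl e, ← sum_mul]
          have := hc i i.2
          calc M i * (c i ^ 2 * ‖v i‖ ^ 2) = (c i ^ 2 * M i) * ‖v i‖ ^ 2 := by ring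
            _ = ‖v i‖ ^ 2 := by rw [this, one_mul]
      _ ≤ ∑ _i : F, (1 : ℝ) := by
          apply sum_le_sum; intro i _
          have h0 := norm_nonneg (v i)
          have := hv i
          nlinarith
      _ = (F.card : ℝ) := by simp
      _ ≤ 2 * finrank ℝ K := by
          have : F.card ≤ 2 * finrank ℝ K := by omega
          exact_mod_cast this
  obtain ⟨b, hbK, hb1, hb⟩ := exists_unit_small K (range (n + 1) ×ˢ (univ : Finset (Fin d))) u
    (fun a => μ a.1) (fun a _ => (hμ a.1).le) 2 htrace hKpos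
  let δ : ℕ → ℝ := fun i => if h : i ∈ F then b ⟨i, h⟩ * c i else 0
  have hδF : ∀ i, i ∉ F → δ i = 0 := fun i hi => dif_neg hi
  have hδc : ∀ i : F, δ i = b i * c i := by
    intro i
    simp only [δ]
    rw [dif_pos i.2]
  have hnorm : ∑ i : F, (b i) ^ 2 = 1 := by
    rw [← EuclideanSpace.real_norm_sq_eq, hb1]; norm_num
  refine ⟨δ, hδF, ?_, ?_, ?_⟩
  · by_contra hcon
    simp only [not_exists, not_not] at hcon
    have : ∑ i : F, (b i) ^ 2 = 0 := by
      apply sum_eq_zero
      intro i _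
      have h1 := hcon i
      rw [hδc i] at h1
      have h2 : c i ≠ 0 := by
        intro h0
        have := hc i i.2
        rw [h0] at this
        norm_num at this
      have h3 : b i = 0 := by
        rcases mul_eq_zero.1 h1 with h | h
        · exact h
        · exact absurd h h2
      rw [h3]; norm_num
    rw [hnorm] at this
    norm_num at this
  · have hA : A b = 0 := hbK
    unfold pre
    rw [sum_range_eq_sum_coe F (fun i => δ i • v i) (fun i hi => by simp [hδF i hi]) n]
    rw [← hA]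
    change _ = ∑ i : F, (b i * c i) • v i
    apply sum_congr rfl
    intro i _
    rw [if_pos (hFn i i.2), hδc i]
  · have e1 : ∀ k, ‖pre v δ k‖ ^ 2 = ∑ c' : Fin d, ⟪b, u (k, c')⟫ ^ 2 := by
      intro k
      rw [EuclideanSpace.real_norm_sq_eq]
      apply sum_congr rfl
      intro c' _
      congr 1
      rw [pre_apply, sum_range_eq_sum_coe F (fun i => δ i * v i c')
        (fun i hi => by simp [hδF i hi]) k, PiLp.inner_apply]
      apply sum_congr rfl
      intro i _
      simp only [u, hδc i]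
      split_ifs
      · simp; ring
      · simp
    have e2 : ∑ k ∈ range (n + 1), μ k * ∑ i ∈ range k, δ i ^ 2 = 1 := by
      have e3 : ∀ k ∈ range (n + 1), μ k * ∑ i ∈ range k, δ i ^ 2
          = ∑ i : F, (if (i : ℕ) < k then μ k else 0) * (b i * c i) ^ 2 := by
        intro k _
        rw [sum_range_eq_sum_coe F (fun i => δ i ^ 2) (fun i hi => by simp [hδF i hi]) k, mul_sum]
        apply sum_congr rfl
        intro i _
        rw [hδc i]
        split_ifs <;> ring
      rw [sum_congr rfl e3, sum_comm, ← hnorm]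
      apply sum_congr rfl
      intro i _
      rw [← sum_mul]
      have := hc i i.2
      calc M i * (b i * c i) ^ 2 = (c i ^ 2 * M i) * (b i) ^ 2 := by ring
        _ = (b i) ^ 2 := by rw [this, one_mul]
    have e4 : Q v μ n δ = ∑ a ∈ range (n + 1) ×ˢ (univ : Finset (Fin d)), μ a.1 * ⟪b, u a⟫ ^ 2
        - 2 * ∑ k ∈ range (n + 1), μ k * ∑ i ∈ range k, δ i ^ 2 := by
      unfold Q
      rw [sum_product, mul_sum, ← sum_sub_distrib]
      apply sum_congr rfl
      intro k _
      rw [e1 k]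
      simp only
      rw [← mul_sum]
      ring
    rw [e4, e2]
    linarith

end Vale.Agent.Lib.P262
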