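import Mathlib
import Vale.Agent.Lib.P262.Move
import Vale.Agent.Lib.P262.Dir

namespace Vale.Agent.Lib.P262

open Finset
open scoped RealInnerProductSpace

/-- The coordinates below `n` that are still strictly inside `(-1,1)`. -/
noncomputable def alive (n : ℕ) (x : ℕ → ℝ) : Finset ℕ := (range n).filter (fun i => |x i| < 1)

lemma mem_alive {n : ℕ} {x : ℕ → ℝ} {i : ℕ} : i ∈ alive n x ↔ i < n ∧ |x i| < 1 := by
  unfold alive
  rw [mem_filter, mem_range]

lemma sum_one_sub_sq_le (n : ℕ) (x : ℕ → ℝ) (hx : ∀ i, |x i| ≤ 1) :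
    ∑ i ∈ range n, (1 - x i ^ 2) ≤ ((alive n x).card : ℝ) := by
  unfold alive
  rw [card_filter, Nat.cast_sum]
  apply sum_le_sum
  intro i _
  split_ifs with h
  · have := sq_nonneg (x i)
    push_cast
    linarith
  · have h1 : |x i| = 1 := le_antisymm (hx i) (not_lt.1 h)
    have h2 : x i ^ 2 = 1 := by rw [← sq_abs, h1]; norm_num
    rw [h2]; norm_num

section freeze
variable {d : ℕ} (v : ℕ → EuclideanSpace ℝ (Fin d)) (hv : ∀ i, ‖v i‖ ≤ 1) (μ : ℕ → ℝ)

include hv in
lemma freeze (hμ : ∀ k, 0 < μ k) (hd : 1 ≤ d) (n : ℕ) (x : ℕ → ℝ) (hx : ∀ i, |x i| ≤ 1)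
    (hpre : pre v x n = 0) (hcard : 2 * d ≤ (alive n x).card) :
    ∃ x' : ℕ → ℝ, (∀ i, |x' i| ≤ 1) ∧ (∀ i, n ≤ i → x' i = x i) ∧ pre v x' n = 0 ∧
      U v μ n x' ≤ U v μ n x ∧ (alive n x').card < (alive n x).card := by
  obtain ⟨δ, hδF, hδ, hδpre, hQ⟩ := good_dir v hv μ hμ n (alive n x)
    (fun i hi => (mem_alive.1 hi).1) hcard hd
  obtain ⟨s, h1, ⟨i0, hi0, hi0'⟩, h3⟩ := move v μ n x δ (alive n x) hx hδF hδ hQ
  refine ⟨fun i => x i + s * δ i, h1, ?_, ?_, h3, ?_⟩
  · intro i hi
    have : i ∉ alive n x := fun h => absurd (mem_alive.1 h).1 (by omega)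
    simp [hδF i this]
  · rw [pre_add_smul, hpre, hδpre]; simp
  · apply card_lt_card
    rw [ssubset_iff_of_subset]
    · refine ⟨i0, hi0, ?_⟩
      intro h
      have := (mem_alive.1 h).2
      rw [hi0'] at this
      exact lt_irrefl _ this
    · intro i hi
      by_contra hcon
      have h5 := mem_alive.1 hi
      simp only [hδF i hcon, mul_zero, add_zero] at h5
      exact hcon (mem_alive.2 h5)

include hv in
/-- The online process: after `t` arrivals fewer than `2d` coordinates are alive. -/
lemma process (hμ : ∀ k, 0 < μ k) (hd : 1 ≤ d) (t : ℕ) :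
    ∃ x : ℕ → ℝ, (∀ i, |x i| ≤ 1) ∧ (∀ i, t ≤ i → x i = 0) ∧ pre v x t = 0 ∧
      (alive t x).card < 2 * d ∧ U v μ t x ≤ 4 * d * ∑ k ∈ range (t + 1), μ k := by
  induction t with
  | zero =>
    refine ⟨fun _ => 0, by simp, by simp, by simp [pre], ?_, ?_⟩
    · simp [alive]; omega
    · simp only [U, pre]
      simp
      have := (hμ 0).le
      positivity
  | succ t ih =>
    obtain ⟨x, hx, hx0, hpre, hcard, hU⟩ := ih
    have hxt : x t = 0 := hx0 t le_rfl
    have hpre' : pre v x (t + 1) = 0 := by
      have : pre v x (t + 1) = pre v x t + x t • v t := by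
        unfold pre; rw [sum_range_succ]
      rw [this, hpre, hxt]; simp
    have hcard' : (alive (t + 1) x).card ≤ 2 * d := by
      have hsub : alive (t + 1) x ⊆ insert t (alive t x) := by
        intro i hi
        have h1 := mem_alive.1 hi
        rw [mem_insert]
        by_cases h : i = t
        · exact Or.inl h
        · exact Or.inr (mem_alive.2 ⟨by omega, h1.2⟩)
      have h2 := card_le_card hsub
      have h3 := card_insert_le t (alive t x)
      omega
    have hU' : U v μ (t + 1) x ≤ 4 * d * ∑ k ∈ range (t + 1 + 1), μ k := by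
      have e : U v μ (t + 1) x = U v μ t x + μ (t + 1) * (‖pre v x (t + 1)‖ ^ 2
          + 2 * ∑ i ∈ range (t + 1), (1 - x i ^ 2)) := by
        unfold U; rw [sum_range_succ]
      rw [e, hpre', sum_range_succ _ (t + 1)]
      have h1 := sum_one_sub_sq_le (t + 1) x hx
      have h2 : ((alive (t + 1) x).card : ℝ) ≤ 2 * d := by exact_mod_cast hcard'
      have h3 : μ (t + 1) * (‖(0 : EuclideanSpace ℝ (Fin d))‖ ^ 2
          + 2 * ∑ i ∈ range (t + 1), (1 - x i ^ 2)) ≤ μ (t + 1) * (4 * d) := by
        apply mul_le_mul_of_nonneg_left _ (hμ _).le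
        simp only [norm_zero]
        linarith
      linarith
    by_cases hlt : (alive (t + 1) x).card < 2 * d
    · exact ⟨x, hx, fun i hi => hx0 i (by omega), hpre', hlt, hU'⟩
    · obtain ⟨x', g1, g2, g3, g4, g5⟩ := freeze v hv μ hμ hd (t + 1) x hx hpre' (by omega)
      refine ⟨x', g1, fun i hi => ?_, g3, by omega, g4.trans hU'⟩
      rw [g2 i hi]; exact hx0 i (by omega)

include hv in
/-- Rounding the remaining coordinates one at a time. -/
lemma round (hμ : ∀ k, 0 ≤ μ k) (n m : ℕ) : ∀ x : ℕ → ℝ, (∀ i, |x i| ≤ 1) →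
    (alive n x).card ≤ m →
    ∃ x' : ℕ → ℝ, (∀ i, |x' i| ≤ 1) ∧ alive n x' = ∅ ∧ U v μ n x' ≤ U v μ n x := by
  induction m with
  | zero =>
    intro x hx hc
    exact ⟨x, hx, card_eq_zero.1 (by omega), le_rfl⟩
  | succ m ih =>
    intro x hx hc
    by_cases hemp : alive n x = ∅
    · exact ⟨x, hx, hemp, le_rfl⟩
    · obtain ⟨i0, hi0⟩ := nonempty_iff_ne_empty.2 hemp
      let δ : ℕ → ℝ := fun j => if j = i0 then 1 else 0
      have hQ : Q v μ n δ ≤ 0 := by
        unfold Q
        apply sum_nonpos
        intro k _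
        apply mul_nonpos_of_nonneg_of_nonpos (hμ k)
        by_cases hk : i0 < k
        · have e1 : pre v δ k = v i0 := by
            unfold pre
            rw [sum_eq_single i0]
            · simp [δ]
            · intro j _ hj; simp [δ, hj]
            · intro h; exact absurd (mem_range.2 hk) h
          have e2 : ∑ i ∈ range k, δ i ^ 2 = 1 := by
            rw [sum_eq_single i0]
            · simp [δ]
            · intro j _ hj; simp [δ, hj]
            · intro h; exact absurd (mem_range.2 hk) h
          rw [e1, e2]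
          have h0 := norm_nonneg (v i0)
          have := hv i0
          nlinarith
        · have e1 : pre v δ k = 0 := by
            unfold pre
            apply sum_eq_zero
            intro j hj
            have : j ≠ i0 := by
              have := mem_range.1 hj
              omega
            simp [δ, this]
          rw [e1]
          have : 0 ≤ ∑ i ∈ range k, δ i ^ 2 := sum_nonneg (fun i _ => sq_nonneg _)
          simp only [norm_zero]
          linarith
      obtain ⟨s, h1, ⟨i1, hi1, hi1'⟩, h3⟩ := move v μ n x δ {i0} hx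
        (fun i hi => by
          have : i ≠ i0 := by simpa using hi
          simp [δ, this]) ⟨i0, by simp [δ]⟩ hQ
      have hi1e : i1 = i0 := by simpa using hi1
      subst hi1e
      have hlt : (alive n (fun i => x i + s * δ i)).card < (alive n x).card := by
        apply card_lt_card
        rw [ssubset_iff_of_subset]
        · refine ⟨i1, hi0, ?_⟩
          intro h
          have := (mem_alive.1 h).2
          rw [hi1'] at this
          exact lt_irrefl _ this
        · intro i hi
          have h5 := mem_alive.1 hi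
          by_cases hii : i = i1
          · rw [hii]; exact hi0
          · simp only [δ, hii, if_false, mul_zero, add_zero] at h5
            exact mem_alive.2 h5
      obtain ⟨x', g1, g2, g3⟩ := ih (fun i => x i + s * δ i) h1 (by omega)
      exact ⟨x', g1, g2, g3.trans h3⟩

include hv in
/-- The mean-square bound for strictly positive weights. -/
lemma core_pos (hμ : ∀ k, 0 < μ k) (hd : 1 ≤ d) (N : ℕ) :
    ∃ ε : ℕ → ℝ, (∀ i, ε i = 1 ∨ ε i = -1) ∧
      ∑ k ∈ range (N + 1), μ k * ‖pre v ε k‖ ^ 2 ≤ 4 * d * ∑ k ∈ range (N + 1), μ k := by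
  obtain ⟨x, hx, _, _, _, hU⟩ := process v hv μ hμ hd N
  obtain ⟨x', g1, g2, g3⟩ := round v hv μ (fun k => (hμ k).le) N _ x hx le_rfl
  have hsq : ∀ i, i < N → |x' i| = 1 := by
    intro i hi
    by_contra h
    have : i ∈ alive N x' := mem_alive.2 ⟨hi, lt_of_le_of_ne (g1 i) h⟩
    rw [g2] at this
    exact absurd this (notMem_empty _)
  refine ⟨fun i => if i < N then x' i else 1, ?_, ?_⟩
  · intro i
    by_cases hi : i < N
    · simp only [hi, if_true]
      rcases abs_eq (by norm_num : (0 : ℝ) ≤ 1) |>.1 (hsq i hi) with h | h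
      · exact Or.inl h
      · exact Or.inr h
    · simp [hi]
  · have e : ∑ k ∈ range (N + 1), μ k * ‖pre v (fun i => if i < N then x' i else 1) k‖ ^ 2
        = U v μ N x' := by
      unfold U
      apply sum_congr rfl
      intro k hk
      have hk' : k ≤ N := by have := mem_range.1 hk; omega
      have e1 : pre v (fun i => if i < N then x' i else 1) k = pre v x' k := by
        unfold pre
        apply sum_congr rfl
        intro i hi
        have : i < N := by have := mem_range.1 hi; omega
        simp [this]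
      have e2 : ∑ i ∈ range k, (1 - x' i ^ 2) = 0 := by
        apply sum_eq_zero
        intro i hi
        have : i < N := by have := mem_range.1 hi; omega
        rw [← sq_abs, hsq i this]; norm_num
      rw [e1, e2]; ring
    rw [e]
    exact g3.trans hU

/-- The sign sequence that is `-1` exactly on `s`. -/
noncomputable def sg (s : Finset ℕ) (i : ℕ) : ℝ := if i ∈ s then -1 else 1

lemma sg_eq (s : Finset ℕ) (i : ℕ) : sg s i = 1 ∨ sg s i = -1 := by
  unfold sg; split_ifs <;> simp

include hv in
/-- The mean-square bound for nonnegative weights. -/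
lemma core_nonneg (hμ : ∀ k, 0 ≤ μ k) (hd : 1 ≤ d) (N : ℕ) :
    ∃ s ∈ (range N).powerset,
      ∑ k ∈ range (N + 1), μ k * ‖pre v (sg s) k‖ ^ 2 ≤ 4 * d * ∑ k ∈ range (N + 1), μ k := by
  classical
  obtain ⟨s0, hs0, hmin⟩ := exists_min_image (range N).powerset
    (fun s => ∑ k ∈ range (N + 1), μ k * ‖pre v (sg s) k‖ ^ 2) ⟨∅, by simp⟩
  refine ⟨s0, hs0, ?_⟩
  apply le_of_forall_pos_le_add
  intro η hη
  set θ : ℝ := η / (4 * d * (N + 1)) with hθ
  have hdpos : (0 : ℝ) < d := by exact_mod_cast hd
  have hθpos : 0 < θ := by positivity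
  obtain ⟨ε, hε, hb⟩ := core_pos v hv (fun k => μ k + θ)
    (fun k => add_pos_of_nonneg_of_pos (hμ k) hθpos) hd N
  set s : Finset ℕ := (range N).filter (fun i => ε i = -1) with hs
  have hsmem : s ∈ (range N).powerset := by
    rw [mem_powerset]; exact filter_subset _ _
  have hpre : ∀ k ∈ range (N + 1), pre v (sg s) k = pre v ε k := by
    intro k hk
    unfold pre
    apply sum_congr rfl
    intro i hi
    have hiN : i < N := by
      have := mem_range.1 hi
      have := mem_range.1 hk
      omega
    congr 1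
    unfold sg
    rcases hε i with h | h
    · have : i ∉ s := by
        rw [hs, mem_filter]
        intro hh
        rw [h] at hh
        norm_num at hh
      rw [if_neg this, h]
    · have : i ∈ s := by
        rw [hs, mem_filter]
        exact ⟨mem_range.2 hiN, h⟩
      rw [if_pos this, h]
  calc ∑ k ∈ range (N + 1), μ k * ‖pre v (sg s0) k‖ ^ 2
      ≤ ∑ k ∈ range (N + 1), μ k * ‖pre v (sg s) k‖ ^ 2 := hmin s hsmem
    _ = ∑ k ∈ range (N + 1), μ k * ‖pre v ε k‖ ^ 2 := by
        apply sum_congr rfl; intro k hk; rw [hpre k hk]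
    _ ≤ ∑ k ∈ range (N + 1), (μ k + θ) * ‖pre v ε k‖ ^ 2 := by
        apply sum_le_sum; intro k _
        apply mul_le_mul_of_nonneg_right _ (sq_nonneg _)
        linarith
    _ ≤ 4 * d * ∑ k ∈ range (N + 1), (μ k + θ) := hb
    _ = 4 * d * ∑ k ∈ range (N + 1), μ k + η := by
        rw [sum_add_distrib, sum_const, card_range, hθ]
        simp only [nsmul_eq_mul]
        push_cast
        field_simp

end freeze

end Vale.Agent.Lib.P262
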