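import Mathlib
import Vale.Agent.Lib.P262.Main

namespace Vale.Agent.Lib.P262

open Finset
open scoped RealInnerProductSpace

/-- By hyperplane separation the weighted bounds give one distribution good for all prefixes. -/
lemma exists_distribution {d : ℕ} (v : ℕ → EuclideanSpace ℝ (Fin d)) (hv : ∀ i, ‖v i‖ ≤ 1)
    (hd : 1 ≤ d) (N : ℕ) :
    ∃ p : Finset ℕ → ℝ, (∀ s, 0 ≤ p s) ∧ ∑ s ∈ (range N).powerset, p s = 1 ∧
      ∀ k ≤ N, ∑ s ∈ (range N).powerset, p s * ‖pre v (sg s) k‖ ^ 2 ≤ 4 * d := by
  classical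
  let ι := ↥((range N).powerset)
  let a : ι → (Fin (N + 1) → ℝ) := fun s k => ‖pre v (sg s) k‖ ^ 2
  let T : (ι → ℝ) →ₗ[ℝ] (Fin (N + 1) → ℝ) :=
    { toFun := fun p => ∑ s, p s • a s
      map_add' := by
        intro p q
        rw [← sum_add_distrib]
        apply sum_congr rfl
        intro s _
        rw [Pi.add_apply, add_smul]
      map_smul' := by
        intro r p
        rw [smul_sum]
        apply sum_congr rfl
        intro s _
        rw [Pi.smul_apply, smul_eq_mul, RingHom.id_apply, mul_smul] }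
  let C : Set (Fin (N + 1) → ℝ) := T '' stdSimplex ℝ ι
  let Y : Set (Fin (N + 1) → ℝ) := Set.pi Set.univ (fun _ => Set.Iic (4 * (d : ℝ)))
  have hCc : IsCompact C := (isCompact_stdSimplex ℝ ι).image T.continuous_of_finiteDimensional
  have hCv : Convex ℝ C := (convex_stdSimplex ℝ ι).linear_image T
  have hYc : IsClosed Y := isClosed_set_pi (fun _ _ => isClosed_Iic)
  have hYv : Convex ℝ Y := convex_pi (fun _ _ => convex_Iic _)
  have hmeet : ¬ Disjoint C Y := by
    intro hdis
    obtain ⟨f, u, w, hfC, huw, hfY⟩ := geometric_hahn_banach_compact_closed hCv hCc hYv hYc hdis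
    let e : Fin (N + 1) → (Fin (N + 1) → ℝ) := fun k j => if k = j then 1 else 0
    have hf : ∀ y : Fin (N + 1) → ℝ, f y = ∑ k, y k * f (e k) := by
      intro y
      have := LinearMap.pi_apply_eq_sum_univ (f : (Fin (N + 1) → ℝ) →ₗ[ℝ] ℝ) y
      simpa using this
    let y0 : Fin (N + 1) → ℝ := fun _ => 4 * (d : ℝ)
    have hy0 : y0 ∈ Y := by
      intro k _
      exact (le_refl (4 * (d : ℝ)))
    have hneg : ∀ k, f (e k) ≤ 0 := by
      intro k
      by_contra hpos
      rw [not_le] at hpos
      set t : ℝ := (f y0 - w) / f (e k) + 1 with ht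
      have ht0 : 0 ≤ t := by
        have : 0 < f y0 - w := by linarith [hfY y0 hy0]
        positivity
      have hmem : y0 - t • e k ∈ Y := by
        intro j _
        simp only [Set.mem_Iic, Pi.sub_apply, Pi.smul_apply, smul_eq_mul, y0, e]
        split_ifs
        · linarith
        · linarith
      have h1 := hfY _ hmem
      rw [map_sub, map_smul, smul_eq_mul, ht] at h1
      have h2 : ((f y0 - w) / f (e k) + 1) * f (e k) = f y0 - w + f (e k) := by
        field_simp
      rw [h2] at h1
      linarith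
    let μ : ℕ → ℝ := fun k => if h : k < N + 1 then - f (e ⟨k, h⟩) else 0
    have hμ : ∀ k, 0 ≤ μ k := by
      intro k
      simp only [μ]
      split_ifs with h
      · linarith [hneg ⟨k, h⟩]
      · exact le_rfl
    have hμF : ∀ k : Fin (N + 1), μ k = - f (e k) := by
      intro k
      simp only [μ]
      rw [dif_pos k.2]
    obtain ⟨s, hs, hb⟩ := core_nonneg v hv μ hμ hd N
    rw [Finset.sum_range, Finset.sum_range] at hb
    have hmemC : a ⟨s, hs⟩ ∈ C := by
      refine ⟨Pi.single ⟨s, hs⟩ 1, single_mem_stdSimplex ℝ _, ?_⟩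
      change ∑ s', (Pi.single (⟨s, hs⟩ : ι) (1 : ℝ) : ι → ℝ) s' • a s' = a ⟨s, hs⟩
      rw [sum_eq_single (⟨s, hs⟩ : ι)]
      · simp
      · intro s' _ hne
        simp [hne]
      · intro h; exact absurd (mem_univ _) h
    have h1 := hfC _ hmemC
    have h2 := hfY y0 hy0
    rw [hf] at h1 h2
    have h3 : ∑ k : Fin (N + 1), a ⟨s, hs⟩ k * f (e k)
        = - ∑ k : Fin (N + 1), μ k * ‖pre v (sg s) k‖ ^ 2 := by
      rw [← sum_neg_distrib]
      apply sum_congr rfl
      intro k _
      rw [hμF k]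
      simp only [a]
      ring
    have h4 : ∑ k : Fin (N + 1), y0 k * f (e k) = - (4 * d * ∑ k : Fin (N + 1), μ k) := by
      rw [mul_sum, ← sum_neg_distrib]
      apply sum_congr rfl
      intro k _
      rw [hμF k]
      simp only [y0]
      ring
    rw [h3] at h1
    rw [h4] at h2
    linarith
  obtain ⟨y, ⟨p, hp, rfl⟩, hyY⟩ := Set.not_disjoint_iff.1 hmeet
  refine ⟨fun s => if h : s ∈ (range N).powerset then p ⟨s, h⟩ else 0, ?_, ?_, ?_⟩
  · intro s
    simp only
    split_ifs with h
    · exact hp.1 _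
    · exact le_rfl
  · rw [← Finset.sum_coe_sort, ← hp.2]
    apply sum_congr rfl
    intro s _
    rw [dif_pos s.2]
  · intro k hk
    have h1 := hyY ⟨k, by omega⟩ (Set.mem_univ _)
    rw [Set.mem_Iic] at h1
    change (∑ s, p s • a s) ⟨k, by omega⟩ ≤ _ at h1
    rw [Finset.sum_apply] at h1
    rw [← Finset.sum_coe_sort]
    refine le_trans (le_of_eq ?_) h1
    apply sum_congr rfl
    intro s _
    simp only
    rw [dif_pos s.2]
    simp [a]

end Vale.Agent.Lib.P262
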