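import Mathlib
import Vale.Agent.Lib.P262.Main

namespace Vale.Agent.Lib.P262

open Finset
open scoped RealInnerProductSpace

section lists
variable {E : Type*} [NormedAddCommGroup E] [InnerProductSpace ℝ E]

/-- Sum of the squared norms of the nonempty partial sums of `l`, started from `c`. -/
noncomputable def B : E → List E → ℝ
  | _, [] => 0
  | c, x :: q => ‖c + x‖ ^ 2 + B (c + x) q

lemma B_nonneg : ∀ (l : List E) (c : E), 0 ≤ B c l
  | [], _ => le_rfl
  | x :: q, c => by
    unfold B
    have := B_nonneg q (c + x)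
    positivity

lemma B_append : ∀ (l1 l2 : List E) (c : E), B c (l1 ++ l2) = B c l1 + B (c + l1.sum) l2
  | [], l2, c => by simp [B]
  | x :: q, l2, c => by
    simp only [List.cons_append, B, List.sum_cons]
    rw [B_append q l2 (c + x), add_assoc, add_assoc]

lemma B_concat (l : List E) (x c : E) : B c (l ++ [x]) = B c l + ‖c + l.sum + x‖ ^ 2 := by
  rw [B_append]
  simp [B]

lemma B_reverse : ∀ (n : List E) (c : E),
    B c n.reverse = ‖c + n.sum‖ ^ 2 + B (-(c + n.sum)) n - ‖c‖ ^ 2
  | [], c => by simp [B]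
  | x :: q, c => by
    rw [List.reverse_cons, B_concat, B_reverse q c, List.sum_reverse, List.sum_cons]
    simp only [B]
    have e1 : -(c + (x + q.sum)) + x = -(c + q.sum) := by abel
    have e2 : c + q.sum + x = c + (x + q.sum) := by abel
    rw [e1, e2, norm_neg]
    ring

lemma B_eq_sum_take : ∀ (l : List E) (c : E),
    B c l = ∑ k ∈ range l.length, ‖c + (l.take (k + 1)).sum‖ ^ 2
  | [], c => by simp [B]
  | x :: q, c => by
    rw [List.length_cons, sum_range_succ']
    simp only [B, List.take_succ_cons, List.sum_cons, List.take_zero, List.sum_nil, add_zero]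
    rw [B_eq_sum_take q (c + x), add_comm]
    congr 1
    apply sum_congr rfl
    intro k _
    rw [add_assoc]

end lists

section seq
variable {E : Type*} [NormedAddCommGroup E] [InnerProductSpace ℝ E]

open Classical in
/-- The indices below `N` with sign `+1`, in increasing order. -/
noncomputable def posI (ε : ℕ → ℝ) (N : ℕ) : List ℕ :=
  (List.range N).filter (fun i => decide (ε i = 1))

open Classical in
/-- The indices below `N` with sign different from `+1`, in increasing order. -/
noncomputable def negI (ε : ℕ → ℝ) (N : ℕ) : List ℕ :=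
  (List.range N).filter (fun i => !decide (ε i = 1))

lemma posI_succ_pos (ε : ℕ → ℝ) (N : ℕ) (h : ε N = 1) : posI ε (N + 1) = posI ε N ++ [N] := by
  unfold posI
  rw [List.range_succ, List.filter_append]
  simp [h]

lemma posI_succ_neg (ε : ℕ → ℝ) (N : ℕ) (h : ¬ ε N = 1) : posI ε (N + 1) = posI ε N := by
  unfold posI
  rw [List.range_succ, List.filter_append]
  simp [h]

lemma negI_succ_pos (ε : ℕ → ℝ) (N : ℕ) (h : ε N = 1) : negI ε (N + 1) = negI ε N := by
  unfold negI
  rw [List.range_succ, List.filter_append]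
  simp [h]

lemma negI_succ_neg (ε : ℕ → ℝ) (N : ℕ) (h : ¬ ε N = 1) : negI ε (N + 1) = negI ε N ++ [N] := by
  unfold negI
  rw [List.range_succ, List.filter_append]
  simp [h]

lemma pre_succ (w : ℕ → E) (x : ℕ → ℝ) (k : ℕ) : pre w x (k + 1) = pre w x k + x k • w k := by
  unfold pre; rw [sum_range_succ]

lemma two_smul_sums (w : ℕ → E) (ε : ℕ → ℝ) (hε : ∀ i, ε i = 1 ∨ ε i = -1) (N : ℕ) :
    (2 : ℝ) • ((posI ε N).map w).sum = pre w (fun _ => 1) N + pre w ε N ∧
    (2 : ℝ) • ((negI ε N).map w).sum = pre w (fun _ => 1) N - pre w ε N := by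
  induction N with
  | zero => simp [posI, negI, pre]
  | succ N ih =>
    obtain ⟨ih1, ih2⟩ := ih
    rw [pre_succ, pre_succ]
    rcases hε N with h | h
    · rw [posI_succ_pos ε N h, negI_succ_pos ε N h, h]
      constructor
      · rw [List.map_append, List.sum_append, smul_add, ih1]
        simp only [List.map_cons, List.map_nil, List.sum_cons, List.sum_nil, add_zero, one_smul,
          two_smul]
        abel
      · rw [ih2]
        simp only [one_smul]
        abel
    · have h' : ¬ ε N = 1 := by rw [h]; norm_num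
      rw [posI_succ_neg ε N h', negI_succ_neg ε N h', h]
      constructor
      · rw [ih1]
        simp only [one_smul, neg_smul]
        abel
      · rw [List.map_append, List.sum_append, smul_add, ih2]
        simp only [List.map_cons, List.map_nil, List.sum_cons, List.sum_nil, add_zero, one_smul,
          two_smul, neg_smul]
        abel

lemma norm_sq_half_le (a S P : E) (h : (2 : ℝ) • a = S + P ∨ (2 : ℝ) • a = S - P) :
    ‖a‖ ^ 2 ≤ (‖S‖ ^ 2 + ‖P‖ ^ 2) / 2 := by
  have hpar := parallelogram_law_with_norm ℝ S P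
  have h4 : ‖(2 : ℝ) • a‖ ^ 2 = 4 * ‖a‖ ^ 2 := by
    rw [norm_smul, mul_pow]; norm_num
  rcases h with h | h
  · rw [h] at h4
    nlinarith [norm_nonneg (S - P)]
  · rw [h] at h4
    nlinarith [norm_nonneg (S + P)]

lemma B_pos_neg (w : ℕ → E) (ε : ℕ → ℝ) (hε : ∀ i, ε i = 1 ∨ ε i = -1) (N : ℕ) :
    B 0 ((posI ε N).map w) + B 0 ((negI ε N).map w)
      ≤ (∑ k ∈ range N, ‖pre w (fun _ => 1) (k + 1)‖ ^ 2
          + ∑ k ∈ range N, ‖pre w ε (k + 1)‖ ^ 2) / 2 := by
  induction N with
  | zero => simp [posI, negI, B]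
  | succ N ih =>
    rw [sum_range_succ, sum_range_succ]
    have hs := two_smul_sums w ε hε (N + 1)
    by_cases h : ε N = 1
    · have e : ((posI ε (N + 1)).map w).sum = 0 + ((posI ε N).map w).sum + w N := by
        rw [posI_succ_pos ε N h]; simp
      rw [negI_succ_pos ε N h]
      have e2 : B 0 ((posI ε (N + 1)).map w) = B 0 ((posI ε N).map w)
          + ‖((posI ε (N + 1)).map w).sum‖ ^ 2 := by
        rw [e, posI_succ_pos ε N h, List.map_append]
        exact B_concat _ _ _
      rw [e2]
      have := norm_sq_half_le _ _ _ (Or.inl hs.1)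
      linarith
    · have e : ((negI ε (N + 1)).map w).sum = 0 + ((negI ε N).map w).sum + w N := by
        rw [negI_succ_neg ε N h]; simp
      rw [posI_succ_neg ε N h]
      have e2 : B 0 ((negI ε (N + 1)).map w) = B 0 ((negI ε N).map w)
          + ‖((negI ε (N + 1)).map w).sum‖ ^ 2 := by
        rw [e, negI_succ_neg ε N h, List.map_append]
        exact B_concat _ _ _
      rw [e2]
      have := norm_sq_half_le _ _ _ (Or.inr hs.2)
      linarith

/-- Chobanyan's transference in mean-square form. -/
lemma transfer (w : ℕ → E) (ε : ℕ → ℝ) (hε : ∀ i, ε i = 1 ∨ ε i = -1) (N : ℕ)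
    (hsum : pre w (fun _ => 1) N = 0) :
    B 0 (((posI ε N) ++ (negI ε N).reverse).map w)
      ≤ (∑ k ∈ range N, ‖pre w (fun _ => 1) (k + 1)‖ ^ 2
          + ∑ k ∈ range N, ‖pre w ε (k + 1)‖ ^ 2) / 2 := by
  have hs := two_smul_sums w ε hε N
  have hz : ((posI ε N).map w).sum + ((negI ε N).map w).sum = 0 := by
    have : (2 : ℝ) • (((posI ε N).map w).sum + ((negI ε N).map w).sum) = 0 := by
      rw [smul_add, hs.1, hs.2, hsum]; simp
    rcases smul_eq_zero.1 this with h | h
    · norm_num at h
    · exact h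
  rw [List.map_append, List.map_reverse, B_append, B_reverse, zero_add, hz]
  have h1 := B_pos_neg w ε hε N
  have h2 : 0 ≤ ‖((posI ε N).map w).sum‖ ^ 2 := sq_nonneg _
  simp only [norm_zero, neg_zero]
  linarith

lemma perm_pos_neg (ε : ℕ → ℝ) (N : ℕ) :
    ((posI ε N) ++ (negI ε N).reverse).Perm (List.range N) := by
  unfold posI negI
  exact ((List.Perm.refl _).append (List.reverse_perm _)).trans (List.filter_append_perm _ _)

lemma sum_map_range (w : ℕ → E) (n : ℕ) :
    ((List.range n).map w).sum = pre w (fun _ => 1) n := by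
  induction n with
  | zero => simp [pre]
  | succ n ih => rw [List.range_succ, List.map_append, List.sum_append, ih, pre_succ]; simp

lemma B_range (w : ℕ → E) (N : ℕ) :
    B 0 ((List.range N).map w) = ∑ k ∈ range N, ‖pre w (fun _ => 1) (k + 1)‖ ^ 2 := by
  have hsum := sum_map_range w
  induction N with
  | zero => simp [B]
  | succ N ih =>
    rw [List.range_succ, List.map_append, sum_range_succ]
    simp only [List.map_cons, List.map_nil]
    rw [B_concat, ih, hsum, pre_succ]
    simp

end seq

/-- Mean-square Steinitz, list form. -/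
theorem steinitz_list {d : ℕ} (hd : 1 ≤ d) (v : ℕ → EuclideanSpace ℝ (Fin d))
    (hv : ∀ i, ‖v i‖ ≤ 1) (N : ℕ) (hsum : ∑ i ∈ range N, v i = 0) :
    ∃ L : List ℕ, L.Perm (List.range N) ∧ B 0 (L.map v) ≤ 4 * d * (N + 1) := by
  classical
  obtain ⟨L0, hL0, hmin⟩ := exists_min_image (List.range N).permutations.toFinset
    (fun L => B 0 (L.map v)) ⟨List.range N, by simp⟩
  have hperm : L0.Perm (List.range N) := by simpa using hL0
  refine ⟨L0, hperm, ?_⟩
  have hlen : L0.length = N := by rw [hperm.length_eq, List.length_range]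
  let g : ℕ → ℕ := fun i => L0.getD i 0
  let w : ℕ → EuclideanSpace ℝ (Fin d) := fun i => v (g i)
  have hmap : (List.range N).map g = L0 := by
    apply List.ext_getElem
    · simp [hlen]
    · intro i h1 h2
      simp [g, List.getElem?_eq_getElem h2]
  have hmapw : (List.range N).map w = L0.map v := by
    rw [← hmap, List.map_map]; rfl
  have hS : pre w (fun _ => 1) N = 0 := by
    rw [← sum_map_range, hmapw, (hperm.map v).sum_eq, sum_map_range]
    unfold pre
    simpa using hsum
  obtain ⟨s, _, hs⟩ := core_nonneg w (fun i => hv _) (fun _ => 1) (fun _ => zero_le_one) hd N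
  simp only [one_mul, sum_const, card_range, nsmul_eq_mul, mul_one] at hs
  have htr := transfer w (sg s) (sg_eq s) N hS
  rw [← B_range, hmapw] at htr
  have hP : ∑ k ∈ range N, ‖pre w (sg s) (k + 1)‖ ^ 2 ≤ 4 * d * (N + 1) := by
    have h1 : ∑ k ∈ range (N + 1), ‖pre w (sg s) k‖ ^ 2
        = ∑ k ∈ range N, ‖pre w (sg s) (k + 1)‖ ^ 2 + ‖pre w (sg s) 0‖ ^ 2 := sum_range_succ' _ _
    have h2 : 0 ≤ ‖pre w (sg s) 0‖ ^ 2 := sq_nonneg _
    push_cast at hs
    linarith
  have hperm' : (((posI (sg s) N) ++ (negI (sg s) N).reverse).map g).Perm (List.range N) := by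
    have := (perm_pos_neg (sg s) N).map g
    rw [hmap] at this
    exact this.trans hperm
  have hm := hmin (((posI (sg s) N) ++ (negI (sg s) N).reverse).map g)
    (by rw [List.mem_toFinset, List.mem_permutations]; exact hperm')
  have e : (((posI (sg s) N) ++ (negI (sg s) N).reverse).map g).map v
      = ((posI (sg s) N) ++ (negI (sg s) N).reverse).map w := by
    rw [List.map_map]; rfl
  have hm' : B 0 (L0.map v) ≤ B 0 (((posI (sg s) N) ++ (negI (sg s) N).reverse).map w) := by
    rw [← e]; exact hm
  linarith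

/-- Mean-square Steinitz, permutation form. -/
theorem steinitz_perm {d : ℕ} (hd : 1 ≤ d) (N : ℕ) (v : Fin N → EuclideanSpace ℝ (Fin d))
    (hv : ∀ i, ‖v i‖ ≤ 1) (hsum : ∑ i, v i = 0) :
    ∃ σ : Equiv.Perm (Fin N), ∑ k ∈ range (N + 1),
      ‖∑ i ∈ univ.filter (fun i : Fin N => (i : ℕ) < k), v (σ i)‖ ^ 2 ≤ 4 * d * (N + 1) := by
  classical
  let v' : ℕ → EuclideanSpace ℝ (Fin d) := fun i => if h : i < N then v ⟨i, h⟩ else 0
  have hv' : ∀ i, ‖v' i‖ ≤ 1 := by
    intro i
    simp only [v']
    split_ifs
    · exact hv _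
    · simp
  have hsum' : ∑ i ∈ range N, v' i = 0 := by
    rw [Finset.sum_range, ← hsum]
    apply sum_congr rfl
    intro i _
    simp [v']
  obtain ⟨L, hperm, hB⟩ := steinitz_list hd v' hv' N hsum'
  have hlen : L.length = N := by rw [hperm.length_eq, List.length_range]
  have hlt : ∀ i : Fin N, L[(i : ℕ)]'(by rw [hlen]; exact i.2) < N := by
    intro i
    have : L[(i : ℕ)]'(by rw [hlen]; exact i.2) ∈ List.range N :=
      hperm.subset (List.getElem_mem _)
    exact List.mem_range.1 this
  have hnd : L.Nodup := hperm.nodup_iff.2 List.nodup_range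
  let f : Fin N → Fin N := fun i => ⟨L[(i : ℕ)]'(by rw [hlen]; exact i.2), hlt i⟩
  have hinj : Function.Injective f := by
    intro i j hij
    have h1 : L[(i : ℕ)]'(by rw [hlen]; exact i.2) = L[(j : ℕ)]'(by rw [hlen]; exact j.2) :=
      congrArg Fin.val hij
    have := (hnd.getElem_inj_iff).1 h1
    exact Fin.ext this
  let σ : Equiv.Perm (Fin N) := Equiv.ofBijective f (Finite.injective_iff_bijective.1 hinj)
  refine ⟨σ, ?_⟩
  have hpart : ∀ k, k ≤ N → ∑ i ∈ univ.filter (fun i : Fin N => (i : ℕ) < k), v (σ i)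
      = ((L.map v').take k).sum := by
    intro k hk
    induction k with
    | zero => simp
    | succ k ih =>
      have hkN : k < N := hk
      have hk' : k < (L.map v').length := by rw [List.length_map, hlen]; exact hkN
      rw [List.take_succ_eq_append_getElem hk', List.sum_append, ← ih (by omega)]
      have hfil : univ.filter (fun i : Fin N => (i : ℕ) < k + 1)
          = insert (⟨k, hkN⟩ : Fin N) (univ.filter (fun i : Fin N => (i : ℕ) < k)) := by
        ext i
        simp only [mem_filter, mem_univ, true_and, mem_insert, Fin.ext_iff]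
        omega
      rw [hfil, sum_insert (by simp), add_comm]
      congr 1
      simp only [List.getElem_map, List.sum_cons, List.sum_nil, add_zero]
      have h2 := hlt ⟨k, hkN⟩
      simp only [v']
      rw [dif_pos h2]
      rfl
  rw [sum_range_succ']
  have h0 : ∑ i ∈ univ.filter (fun i : Fin N => (i : ℕ) < 0), v (σ i) = 0 := by simp
  rw [h0, norm_zero]
  rw [B_eq_sum_take, List.length_map, hlen] at hB
  have : ∑ k ∈ range N, ‖∑ i ∈ univ.filter (fun i : Fin N => (i : ℕ) < k + 1), v (σ i)‖ ^ 2
      = ∑ k ∈ range N, ‖0 + ((L.map v').take (k + 1)).sum‖ ^ 2 := by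
    apply sum_congr rfl
    intro k hk
    rw [hpart (k + 1) (by have := mem_range.1 hk; omega), zero_add]
  rw [this]
  simpa using hB

end Vale.Agent.Lib.P262
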